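import Vale.Agent.P154.Refl

namespace Vale.Agent.P154.Refl

def io2 : P2 := [[3, 1], [2]]
def E2 : P2 := [[9, 6], [12, 3], [3]]
def e2 : P2 := [[27, 27], [54, 27], [27]]

def mono2 (k i j : ℕ) : P2 := mul2 (pow2 io2 k) (mul2 (pow2 E2 i) (pow2 e2 j))

def monos9 : List P2 :=
  [mono2 9 0 0, mono2 7 1 0, mono2 5 2 0, mono2 3 3 0, mono2 1 4 0, mono2 6 0 1, mono2 4 1 1,
   mono2 2 2 1, mono2 0 3 1, mono2 3 0 2, mono2 1 1 2, mono2 0 0 3]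

def monos10 : List P2 :=
  [mono2 10 0 0, mono2 8 1 0, mono2 6 2 0, mono2 4 3 0, mono2 2 4 0, mono2 0 5 0, mono2 7 0 1,
   mono2 5 1 1, mono2 3 2 1, mono2 1 3 1, mono2 4 0 2, mono2 2 1 2, mono2 0 2 2, mono2 1 0 3]

def CJ1 : List (List ℤ) :=
 [[0, 0, 0, 0, 0, 0, 0, 0, 0, 0, 0, 0],
  [0, 0, 0, 0, 0, 0, 4, -8, 4, 0, 0, 0],
  [0, 0, 6, -12, 6, 0, -10, 26, -12, -4, 0, 0],
  [0, 0, -12, 25, -9, 0, 6, -27, 7, 10, 0, 0],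
  [0, 0, 6, -9, -3, 0, 0, 9, 3, -6, 0, 0],
  [0, 0, 0, 0, 0, 0, 0, -4, 4, 0, 0, 0],
  [0, 4, -10, 6, 0, 0, 2, 2, -4, 0, 0, 0],
  [0, -8, 26, -27, 9, -4, 2, 7, -3, -2, 0, 0],
  [0, 4, -12, 7, 3, 4, -4, -3, -1, 2, 0, 0],
  [0, 0, -4, 10, -6, 0, 0, -2, 2, 0, 0, 0],
  [0, 0, 0, 0, 0, 0, 0, 0, 0, 0, 0, 0],
  [0, 0, 0, 0, 0, 0, 0, 0, 0, 0, 0, 0]]

def CJ2 : List (List ℤ) :=
 [[0, 0, 0, 0, 0, 0, 0, 0, 0, 0, 0, 0, 0, 0],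
  [0, 0, 0, 0, 0, 0, 0, 0, 0, 0, 0, 1, 0, -1],
  [0, 0, 0, 0, 0, 0, 0, 0, 3, 0, 0, -8, 0, 5],
  [0, 0, 0, 0, 3, 0, 0, 3, -12, -5, -3, 23, 0, -9],
  [0, 0, 0, 3, -7, 0, 0, -4, 6, 13, 10, -28, 0, 7],
  [0, 0, 0, 0, 0, 0, 0, 0, 6, -8, -8, 12, 0, -2],
  [0, 0, 0, 0, 0, 0, 0, 0, 0, 0, 0, -1, 2, -1],
  [0, 0, 0, 3, -4, 0, 0, -2, -5, 12, 2, -3, -6, 3],
  [0, 0, 3, -12, 6, 6, 0, -5, 33, -38, -10, 14, 6, -3],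
  [0, 0, 0, -5, 13, -8, 0, 12, -38, 27, 10, -10, -2, 1],
  [0, 0, 0, -3, 10, -8, 0, 2, -10, 10, 2, -3, 0, 0],
  [0, 1, -8, 23, -28, 12, -1, -3, 14, -10, -3, 3, 0, 0],
  [0, 0, 0, 0, 0, 0, 2, -6, 6, -2, 0, 0, 0, 0],
  [0, -1, 5, -9, 7, -2, -1, 3, -3, 1, 0, 0, 0, 0]]

def J1p : P4 := bil4 CJ1 monos9 monos9
def J2p : P4 := bil4 CJ2 monos10 monos10

set_option maxRecDepth 100000 in
theorem J1p_nn : nn4 J1p = true := by decide +kernel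

set_option maxRecDepth 100000 in
theorem J2p_nn : nn4 J2p = true := by decide +kernel

end Vale.Agent.P154.Refl
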